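import Mathlib
import Vale.Agent.Lib.P243.R3.Defs
import Vale.Agent.Lib.P243.R3.Defs4
open Set

/-!
# P243, module M4, job J18 (independent backup copy of helper68)

The bounded part of the intersection of two distinct planes of Euclidean 3-space lies in a
segment.
-/

namespace Vale.Agent.Lib.P243.R3

/-- The common kernel of two functionals, the second nonzero and the first not vanishing on the
kernel of the second, is spanned by one vector. -/
theorem M4s_ker_gen_h68 (f1 f2 : E3 →L[ℝ] ℝ) (hf2 : f2 ≠ 0) (v : E3) (hv2 : f2 v = 0)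
    (hv1 : f1 v ≠ 0) :
    ∃ d : E3, ∀ z : E3, f1 z = 0 → f2 z = 0 → ∃ c : ℝ, z = c • d := by
  set N : Submodule ℝ E3 :=
    LinearMap.ker (f1 : E3 →ₗ[ℝ] ℝ) ⊓ LinearMap.ker (f2 : E3 →ₗ[ℝ] ℝ) with hN
  have hlt : N < LinearMap.ker (f2 : E3 →ₗ[ℝ] ℝ) := by
    refine lt_of_le_of_ne inf_le_right ?_
    intro heq
    have hvN : v ∈ N := by
      rw [heq]
      simpa using hv2
    have hv1' : v ∈ LinearMap.ker (f1 : E3 →ₗ[ℝ] ℝ) := hvN.1
    exact hv1 (by simpa using hv1')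
  have hf2' : (f2 : E3 →ₗ[ℝ] ℝ) ≠ 0 := by
    intro h0
    apply hf2
    ext x
    have := congrArg (fun g : E3 →ₗ[ℝ] ℝ => g x) h0
    simpa using this
  have h2 : Module.finrank ℝ (LinearMap.ker (f2 : E3 →ₗ[ℝ] ℝ)) + 1 = 3 := by
    have h3 := Module.Dual.finrank_ker_add_one_of_ne_zero (f := (f2 : E3 →ₗ[ℝ] ℝ)) hf2'
    simpa using h3
  have h1 : Module.finrank ℝ N ≤ 1 := by
    have h4 := Submodule.finrank_lt_finrank_of_lt hlt
    omega
  obtain ⟨d, hd⟩ := finrank_le_one_iff.1 h1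
  refine ⟨(d : E3), fun z hz1 hz2 => ?_⟩
  have hzN : z ∈ N := ⟨by simpa using hz1, by simpa using hz2⟩
  obtain ⟨c, hc⟩ := hd ⟨z, hzN⟩
  refine ⟨c, ?_⟩
  have := congrArg Subtype.val hc
  simpa using this.symm

theorem M4s_line_segment_h68 (f1 f2 : E3 →L[ℝ] ℝ) (hf2 : f2 ≠ 0) (M1 M2 : ℝ)
    (hne : ∃ y, f2 y = M2 ∧ f1 y ≠ M1) (R : ℝ) :
    ∃ α β : E3, ∀ y : E3, ‖y‖ ≤ R → f1 y = M1 → f2 y = M2 → y ∈ segment ℝ α β := by
  by_cases h : ∃ y0, f1 y0 = M1 ∧ f2 y0 = M2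
  swap
  · exact ⟨0, 0, fun y _ h1 h2 => absurd ⟨y, h1, h2⟩ h⟩
  obtain ⟨y0, h01, h02⟩ := h
  obtain ⟨y1, h12, h11⟩ := hne
  obtain ⟨d, hd⟩ := M4s_ker_gen_h68 f1 f2 hf2 (y1 - y0) (by simp [h12, h02])
    (by simpa [h01, sub_eq_zero] using h11)
  by_cases hd0 : d = 0
  · refine ⟨y0, y0, fun y _ h1 h2 => ?_⟩
    obtain ⟨c, hc⟩ := hd (y - y0) (by simp [h1, h01]) (by simp [h2, h02])
    have hyy : y = y0 := by
      rw [hd0, smul_zero] at hc
      exact sub_eq_zero.1 hc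
    rw [hyy]
    exact left_mem_segment ℝ y0 y0
  · have hdpos : 0 < ‖d‖ := norm_pos_iff.2 hd0
    set T : ℝ := (|R| + ‖y0‖) / ‖d‖ + 1 with hT
    have hTpos : 0 < T := by positivity
    refine ⟨y0 - T • d, y0 + T • d, fun y hy h1 h2 => ?_⟩
    obtain ⟨c, hc⟩ := hd (y - y0) (by simp [h1, h01]) (by simp [h2, h02])
    have hcT : |c| ≤ T := by
      have h3 : ‖y - y0‖ = |c| * ‖d‖ := by rw [hc, norm_smul, Real.norm_eq_abs]
      have h4 : ‖y - y0‖ ≤ |R| + ‖y0‖ :=
        (norm_sub_le _ _).trans (add_le_add (hy.trans (le_abs_self R)) le_rfl)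
      have h5 : |c| ≤ (|R| + ‖y0‖) / ‖d‖ := by
        rw [le_div_iff₀ hdpos]
        linarith
      linarith
    have hy' : y = y0 + c • d := by
      rw [← hc]
      abel
    rw [hy']
    have hc1 := (abs_le.1 hcT).1
    have hc2 := (abs_le.1 hcT).2
    refine ⟨(T - c) / (2 * T), (T + c) / (2 * T), ?_, ?_, ?_, ?_⟩
    · exact div_nonneg (by linarith) (by positivity)
    · exact div_nonneg (by linarith) (by positivity)
    · field_simp
      ring
    · have e1 : (T - c) / (2 * T) + (T + c) / (2 * T) = 1 := by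
        field_simp
        ring
      have e2 : ((T + c) / (2 * T) - (T - c) / (2 * T)) * T = c := by
        field_simp
        ring
      calc ((T - c) / (2 * T)) • (y0 - T • d) + ((T + c) / (2 * T)) • (y0 + T • d)
          = ((T - c) / (2 * T) + (T + c) / (2 * T)) • y0
            + (((T + c) / (2 * T) - (T - c) / (2 * T)) * T) • d := by module
        _ = y0 + c • d := by rw [e1, e2, one_smul]

end Vale.Agent.Lib.P243.R3
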